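import Crest.Agent.X262.Sp78.Defs
import Crest.Agent.X262.Hor83.Main

/-!
# Row 262, G4 / SP (helper71): the generic fibre is a K3 surface of Picard number one

* `can_of`   : Riemann-Roch on both fibres and duality give the trivial canonical class;
* `num_of`   : the numbers of a line bundle and of its specialisation agree;
* `k3_of`    : the conclusion of `Alg44.K3Stmt` from `SpOut` and `Sp0`;
* `SpStmt`, `K3Stmt2`, `k3Stmt2_of`, `k3Stmt_of`.
-/

set_option autoImplicit false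

open Filter

noncomputable section

namespace Crest.Agent.X262.Sp71

open Crest.Agent.X277 Crest.Agent.X277.Lef Crest.Agent.X277.AN.G1 Crest.Agent.X277.BD
open Crest.Agent.X277.BD.Br (On oP kP oP_mem kP_mem pr_mem free_oP)
open Crest.Agent.X262.Alg44 Crest.Agent.X262.Sp78
open Crest.Agent.X262.Top (K3 Reg1)
open Crest.Agent.X262.Surf (h0 rr B2 Chi RRStmt SerStmt)

/-- a quadratic polynomial which vanishes for large arguments -/
theorem quad_zero {A B C : ℤ} (h : ∀ᶠ d : ℕ in atTop, A + B * d + C * d ^ 2 = 0) :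
    A = 0 ∧ B = 0 ∧ C = 0 := by
  obtain ⟨N, hN⟩ := eventually_atTop.1 h
  have h0 := hN N le_rfl
  have h1 := hN (N + 1) (by omega)
  have h2 := hN (N + 2) (by omega)
  push_cast at h1 h2
  have hC : C = 0 := by linarith [show 2 * C = 0 by linear_combination h0 - 2 * h1 + h2]
  have hB : B = 0 := by
    rw [hC] at h0 h1
    linear_combination h1 - h0
  rw [hB, hC] at h0
  exact ⟨by simpa using h0, hB, hC⟩

section One

variable {F : Type} [Field F] [Algebra ℂ F]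

theorem h0_zero_le : h0 (0 : BD ℂ F) ≤ 1 := by
  have h1 : (0 : BD ℂ F).Sec ≤ Submodule.span ℂ {1} := fun x hx => by
    have h2 : IsIntegral (⊥ : Subalgebra ℂ F) x := Cns.isIntegral_of_val fun V hV =>
      RZ.le_one_iff.1 (hx ⟨V, Cns.KV.of_le hV⟩)
    obtain ⟨c, rfl⟩ := (IsAlgClosed.algebraMap_bijective_of_isIntegral (k := ℂ)
      (K := integralClosure ℂ F)).2 ⟨x, isIntegral_trans (R := ℂ) x h2⟩ |>.imp
        fun c hc => congrArg Subtype.val hc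
    exact Submodule.mem_span_singleton.2 ⟨c, (Algebra.algebraMap_eq_smul_one c).symm⟩
  have h2 := (Submodule.finrank_mono h1).trans (finrank_span_singleton (one_ne_zero' F)).le
  exact Int.ofNat_le.2 h2

variable [Algebra.EssFiniteType ℂ F] {P : PModel ℂ F} {a : BD ℂ F}

theorem oP_pos (P : PModel ℂ F) (b : B2 F) : 0 < bnum [oP P, oP P] :=
  bnum_pos (Hor83.dim_two b).symm (by simpa using ⟨free_oP.nef, (Hor83.isMod_oP P).big⟩)

/-- an effective class of degree zero is trivial -/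
theorem lin_zero (b : B2 F) (ha : a ∈ On P) (he : Eff a) (h : bnum [a, oP P] = 0) : Lin a 0 := by
  obtain ⟨g, hg, h0⟩ := he
  have h1 : 0 ≤ a - pr ℂ g := sub_nonneg.2 ((pr_le_iff h0).2 hg)
  refine ⟨g, h0, ?_⟩
  rw [zero_add, ← sub_eq_zero]
  refine Geo.eq_of_od (Hor83.isMod_oP P) (Hor83.car_oP (sub_mem ha (pr_mem g))) Mod.Car.zero
    fun V hV => ?_
  have h2 := Geo.od_mul_le h1 (l := [oP P]) (by simpa using free_oP.nef) hV.dvs
  have h3 : 0 < Geo.dg V [oP P] := Geo.dg_pos (d := 1) (Hor83.isMod_oP P) hV (Hor83.dim_two b)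
  rw [bnum_sub, h, bnum_pr, sub_zero] at h2
  rw [map_zero]
  exact le_antisymm (nonpos_of_mul_nonpos_left h2 h3) (Geo.od_nonneg h1)

theorem rr_tw (b : B2 F) (c : ℤ) (a : BD ℂ F) (d : ℕ) : rr P b c (a + d • oP P) =
    2 * c + bnum [a, a] - bnum [kP P b, a] + (2 * bnum [a, oP P] - bnum [kP P b, oP P]) * d +
      bnum [oP P, oP P] * d ^ 2 := by
  rw [rr, bnum_sub2, bnum_swap _ (kP P b), bnum_add, bnum_add2, bnum_add2, bnum_add2, bnum_nsmul,
    bnum_nsmul, bnum_nsmul2, bnum_nsmul2, bnum_nsmul2, bnum_swap (oP P) a]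
  ring

theorem k_zero {b : B2 F} (h : Lin (kP P b) 0) (a : BD ℂ F) : bnum [kP P b, a] = 0 := by
  rw [h.bnum_eq, bnum_zero]

/-- a surface on which all classes are proportional -/
theorem exists_gen (b : B2 F)
    (q1 : ∀ a ∈ On P, bnum [a, a] * bnum [oP P, oP P] = bnum [a, oP P] ^ 2) :
    ∃ l ∈ On P, 0 < bnum [l, oP P] ∧ bnum [l, oP P] ∣ bnum [oP P, oP P] ∧
      ∀ a ∈ On P, ∃ c : ℤ, ∀ a' ∈ On P, bnum [a - c • l, a'] = 0 := by
  have hH := oP_pos P b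
  obtain ⟨g, hg⟩ := Int.subgroup_cyclic ((On P).map (bnumL [oP P]))
  have hm : ∀ z : ℤ, z ∈ (On P).map (bnumL [oP P]) ↔ g ∣ z := fun z => by
    rw [hg, AddSubgroup.mem_closure_singleton]
    exact ⟨fun ⟨c, h⟩ => ⟨c, by rw [← h, smul_eq_mul, mul_comm]⟩,
      fun ⟨c, h⟩ => ⟨c, by rw [h, smul_eq_mul, mul_comm]⟩⟩
  obtain ⟨l, hl1, hl2⟩ := (hm |g|).2 ((dvd_abs g g).2 dvd_rfl)
  replace hl2 : bnum [l, oP P] = |g| := hl2
  have h1 : g ∣ bnum [oP P, oP P] := (hm _).1 ⟨oP P, oP_mem, rfl⟩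
  have hg0 : 0 < |g| := abs_pos.2 fun h => hH.ne' (by simpa [h] using h1)
  refine ⟨l, hl1, hl2 ▸ hg0, hl2 ▸ (abs_dvd g _).2 h1, fun a ha => ?_⟩
  obtain ⟨c, hc⟩ := (abs_dvd g _).2 ((hm _).1 ⟨a, ha, rfl⟩)
  replace hc : bnum [a, oP P] = |g| * c := hc
  have h2 : bnum [a - c • l, oP P] = 0 := by rw [bnum_sub, bnum_zsmul, hc, hl2, mul_comm, sub_self]
  have h3 := q1 _ (sub_mem ha (AddSubgroup.zsmul_mem _ hl1 c))
  rw [h2, zero_pow two_ne_zero, mul_eq_zero] at h3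
  exact ⟨c, fun a' _ => eq_case0 (Λ := []) (by simp) free_oP.nef hH h2
    (h3.resolve_right hH.ne') a'⟩

end One

section Two

variable {F E : Type} [Field F] [Algebra ℂ F] [Algebra.EssFiniteType ℂ F] [Field E] [Algebra ℂ E]
  [Algebra.EssFiniteType ℂ E] {P : PModel ℂ F} {Q : PModel ℂ E} {b : B2 F} {b' : B2 E} {c : ℤ}

/-- the canonical class of the generic fibre -/
theorem can_of (hS : SerStmt) (hc : Chi P b 2) (hK : Lin (kP P b) 0) (hc' : Chi Q b' c)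
    (h : ∀ᶠ d : ℕ in atTop, h0 (d • oP Q) = h0 (d • oP P)) :
    c = 2 ∧ bnum [oP Q, oP Q] = bnum [oP P, oP P] ∧ Lin (kP Q b') 0 := by
  obtain ⟨h1, h2, h3⟩ := quad_zero (A := 2 * c - 4) (B := -bnum [kP Q b', oP Q])
    (C := bnum [oP Q, oP Q] - bnum [oP P, oP P]) (by
      filter_upwards [h, hc 0 (zero_mem _), hc' 0 (zero_mem _)] with d e1 e2 e3
      rw [rr_tw, zero_add] at e2 e3
      rw [k_zero hK, k_zero hK, bnum_zero, bnum_zero] at e2
      rw [bnum_zero, bnum_zero, bnum_swap (kP Q b') 0, bnum_zero] at e3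
      linear_combination 2 * e1 + e2 - e3)
  refine ⟨by omega, by omega, lin_zero b' (kP_mem b') ?_ (by omega)⟩
  have h4 := hS E Q b' c hc' 0 (zero_mem _)
  rw [rr, bnum_zero, sub_zero] at h4
  have h5 := h0_zero_le (F := E)
  rw [eff_iff_finrank]
  have h6 : 0 < h0 (kP Q b') := by omega
  exact Int.natCast_pos.1 h6

/-- the numbers of a class and of its specialisation -/
theorem num_of (hc : Chi P b c) (hK : Lin (kP P b) 0) (hc' : Chi Q b' c) (hK' : Lin (kP Q b') 0)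
    (hH : bnum [oP Q, oP Q] = bnum [oP P, oP P]) {a : BD ℂ E} (ha : a ∈ On Q) {a₀ : BD ℂ F}
    (ha₀ : a₀ ∈ On P) {m : ℕ}
    (h : ∀ᶠ d : ℕ in atTop, h0 (a + (m + d) • oP Q) = h0 (a₀ + d • oP P)) :
    bnum [a₀ - m • oP P, oP P] = bnum [a, oP Q] ∧
      bnum [a₀ - m • oP P, a₀ - m • oP P] = bnum [a, a] := by
  obtain ⟨h1, h2, -⟩ := quad_zero
    (A := bnum [a, a] + 2 * m * bnum [a, oP Q] + m ^ 2 * bnum [oP P, oP P] - bnum [a₀, a₀])
    (B := 2 * (bnum [a, oP Q] + m * bnum [oP P, oP P] - bnum [a₀, oP P])) (C := 0) (by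
      filter_upwards [h, hc a₀ ha₀, (tendsto_add_atTop_nat m).eventually (hc' a ha)]
        with d e1 e2 e3
      rw [add_comm d m] at e3
      rw [rr_tw] at e2 e3
      rw [k_zero hK, k_zero hK] at e2
      rw [k_zero hK', k_zero hK', hH] at e3
      push_cast at e3
      linear_combination 2 * e1 + e2 - e3)
  constructor
  · rw [bnum_sub, bnum_nsmul]
    linarith
  · rw [bnum_sub, bnum_sub2, bnum_sub2, bnum_nsmul, bnum_nsmul, bnum_nsmul2, bnum_nsmul2,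
      bnum_swap (oP P) a₀]
    linear_combination -h1 + m * h2

variable {R : Red F E}

/-- **the generic fibre is a K3 surface of Picard number one and large degree** -/
theorem k3_of2 (hR : RRStmt) (hS : SerStmt) (G : Pre R P) (b : B2 F) (h : G.Sm) (b' : B2 E) (D : ℕ)
    (hs : SpOut G h) (hs0 : Sp0 G h) (hr : G.Rig) (hc : Chi P b 2) (hK : Lin (kP P b) 0)
    (hi : Chi (G.gen h) b' 2 → Lin (kP (G.gen h) b') 0 → ∀ ω, Reg1 (G.gen h) ω → ω = 0)
    (hD : ∀ M ∈ On P, ∀ k : ℤ, (∀ a ∈ On P, bnum [oP P - k • M, a] = 0) → D ≤ bnum [M, M]) :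
    ∃ d : ℕ, D ≤ d ∧ Nonempty (K3 E d) := by
  obtain ⟨c, hc'⟩ := hR E (G.gen h) b'
  obtain ⟨rfl, hH, hK'⟩ := can_of hS hc hK hc' hs0
  have hp := oP_pos P b
  have key : ∀ a ∈ On (G.gen h), ∃ a₀ ∈ On P, bnum [a₀, oP P] = bnum [a, oP (G.gen h)] ∧
      bnum [a₀, a₀] = bnum [a, a] ∧ bnum [a₀, a₀] * bnum [oP P, oP P] = bnum [a₀, oP P] ^ 2 := by
    intro a ha
    obtain ⟨m, n, s, h1, h2, h3, h4, h5⟩ := hs a ha
    obtain ⟨h6, h7⟩ := num_of hc hK hc' hK' hH ha h4 h5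
    refine ⟨_, sub_mem h4 (nsmul_mem oP_mem m), h6, h7, ?_⟩
    have h8 := hr n s h1 h2 h3
    rw [bnum_sub, bnum_sub, bnum_sub2, bnum_sub2, bnum_nsmul, bnum_nsmul, bnum_nsmul, bnum_nsmul2,
      bnum_nsmul2, bnum_swap (oP P) (mxf ℂ _)]
    linear_combination h8
  obtain ⟨l, hl, h1, ⟨k, h2⟩, h3⟩ := exists_gen (P := G.gen h) b' fun a ha => by
    obtain ⟨a₀, -, e1, e2, e3⟩ := key a ha
    rw [hH, ← e1, ← e2, e3]
  obtain ⟨l₀, e0, e1, e2, e3⟩ := key l hl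
  rw [hH, ← e1] at h2
  rw [← e1] at h1
  have e4 : bnum [l₀, l₀] * k = bnum [l₀, oP P] :=
    mul_left_cancel₀ h1.ne' (by rw [h2] at e3; linear_combination e3)
  have e5 : 0 < bnum [l₀, l₀] := (mul_pos_iff_of_pos_right hp).1 (e3 ▸ pow_pos h1 2)
  have e6 := hD l₀ e0 k fun a _ => eq_case0 (Λ := []) (by simp) free_oP.nef hp
    (by rw [bnum_sub, bnum_zsmul, h2]; ring) (by
      rw [bnum_sub, bnum_sub2, bnum_sub2, bnum_zsmul, bnum_zsmul, bnum_zsmul2, bnum_zsmul2,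
        bnum_swap (oP P) l₀, h2]
      linear_combination k * e4) a
  exact ⟨(bnum [l, l]).toNat, by omega,
    ⟨⟨G.gen h, b', hK', hi hc' hK', l, hl, by omega, e1 ▸ h1, h3⟩⟩⟩

theorem k3_of (hR : RRStmt) (hS : SerStmt) (G : Pre R P) (b : B2 F) (h : G.Sm) (b' : B2 E) (D : ℕ)
    (hs : SpOut G h) (hs0 : Sp0 G h) (hr : G.Rig) (hc : Chi P b 2) (hK : Lin (kP P b) 0)
    (hi : ∀ ω, Reg1 (G.gen h) ω → ω = 0)
    (hD : ∀ M ∈ On P, ∀ k : ℤ, (∀ a ∈ On P, bnum [oP P - k • M, a] = 0) → D ≤ bnum [M, M]) :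
    ∃ d : ℕ, D ≤ d ∧ Nonempty (K3 E d) :=
  k3_of2 hR hS G b h b' D hs hs0 hr hc hK (fun _ _ => hi) hD

end Two

/-- the specialisation of line bundles -/
def SpStmt : Prop := ∀ (F E : Type) [Field F] [Algebra ℂ F] [Algebra.EssFiniteType ℂ F] [Field E]
  [Algebra ℂ E] [Algebra.EssFiniteType ℂ E] (R : Red F E) (P : PModel ℂ F) (G : Pre R P)
  (h : G.Sm), G.Pic → SpOut G h ∧ Sp0 G h

/-- `K3Stmt` with the irregularity as an implication -/
def K3Stmt2 : Prop := ∀ (F E : Type) [Field F] [Algebra ℂ F] [Algebra.EssFiniteType ℂ F] [Field E]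
  [Algebra ℂ E] [Algebra.EssFiniteType ℂ E] (R : Red F E) (P : PModel ℂ F) (G : Pre R P)
  (b : B2 F) (h : G.Sm) (bE : B2 E) (D : ℕ), G.Pic → G.Rig → Chi P b 2 → Lin (kP P b) 0 →
    (Chi (G.gen h) bE 2 → Lin (kP (G.gen h) bE) 0 → ∀ ω, Reg1 (G.gen h) ω → ω = 0) →
    (∀ M ∈ On P, ∀ k : ℤ, (∀ a ∈ On P, bnum [oP P - k • M, a] = 0) → D ≤ bnum [M, M]) →
      ∃ d : ℕ, D ≤ d ∧ Nonempty (K3 E d)

theorem k3Stmt2_of (hR : RRStmt) (hS : SerStmt) (hsp : SpStmt) : K3Stmt2 :=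
  fun F E _ _ _ _ _ _ R P G b h b' D hp hr hc hK hi hD =>
    k3_of2 hR hS G b h b' D (hsp F E R P G h hp).1 (hsp F E R P G h hp).2 hr hc hK hi hD

/-- `K3Stmt` from the specialisation of line bundles -/
theorem k3Stmt_of (hR : RRStmt) (hS : SerStmt) (hsp : SpStmt) : K3Stmt :=
  fun F E _ _ _ _ _ _ R P G b h b' D hp hr hc hK hi hD =>
    k3_of hR hS G b h b' D (hsp F E R P G h hp).1 (hsp F E R P G h hp).2 hr hc hK hi hD

end Crest.Agent.X262.Sp71
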